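import Mathlib

/-!
Entropy recursion for a finite point set and a compact convex symmetric class of bounded
functions on it: separated points are at most (net size)^k.
-/

namespace Vale.Agent.P126

open Finset Real

variable {ι : Type*} [Fintype ι]

/-- Variational bound for relative entropy. -/
lemma entropy_variational (q ν u : ι → ℝ) (hq : ∀ i, 0 ≤ q i) (hq1 : ∑ i, q i = 1)
    (hν : ∀ i, 0 < ν i) :
    ∑ i, q i * u i - ∑ i, q i * (log (q i) - log (ν i))
      ≤ log (∑ i, ν i * exp (u i)) := by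
  have hne : (Finset.univ : Finset ι).Nonempty := by
    by_contra h
    rw [Finset.not_nonempty_iff_eq_empty] at h
    simp [h] at hq1
  have hZ : 0 < ∑ i, ν i * exp (u i) :=
    Finset.sum_pos (fun i _ => mul_pos (hν i) (exp_pos _)) hne
  set Z := ∑ i, ν i * exp (u i) with hZdef
  have key : ∀ i, q i * u i - q i * (log (q i) - log (ν i)) - q i * log Z
      ≤ ν i * exp (u i) / Z - q i := by
    intro i
    rcases (hq i).eq_or_lt with h | h
    · simp [← h]
      exact div_nonneg (mul_pos (hν i) (exp_pos _)).le hZ.le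
    · have h1 := log_le_sub_one_of_pos
        (x := ν i * exp (u i) / (q i * Z))
        (div_pos (mul_pos (hν i) (exp_pos _)) (mul_pos h hZ))
      rw [log_div (mul_pos (hν i) (exp_pos _)).ne' (mul_pos h hZ).ne',
        log_mul (hν i).ne' (exp_pos _).ne', log_exp, log_mul h.ne' hZ.ne'] at h1
      have h2 := mul_le_mul_of_nonneg_left h1 h.le
      have h3 : q i * (ν i * exp (u i) / (q i * Z) - 1) = ν i * exp (u i) / Z - q i := by
        field_simp
      rw [h3] at h2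
      linarith
  have hs := Finset.sum_le_sum (s := Finset.univ) (fun i _ => key i)
  simp only [Finset.sum_sub_distrib] at hs
  rw [← Finset.sum_mul, hq1, ← Finset.sum_div, ← hZdef, div_self hZ.ne'] at hs
  linarith

/-- Second order bound on a log moment generating function. -/
lemma log_mgf_le (w v : ι → ℝ) (hw : ∀ i, 0 < w i) (hw1 : ∑ i, w i = 1) {c : ℝ}
    (hv : ∀ i, |v i| ≤ c) (hc : c ≤ 1) :
    log (∑ i, w i * exp (v i)) ≤ ∑ i, w i * v i + c ^ 2 := by
  have hb : ∀ i, w i * exp (v i) ≤ w i * (1 + v i + c ^ 2) := by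
    intro i
    refine mul_le_mul_of_nonneg_left ?_ (hw i).le
    have h1 := abs_exp_sub_one_sub_id_le ((hv i).trans hc)
    have h2 : exp (v i) - 1 - v i ≤ v i ^ 2 := (le_abs_self _).trans h1
    have h3 : v i ^ 2 ≤ c ^ 2 := by
      rw [← sq_abs (v i)]
      exact pow_le_pow_left₀ (abs_nonneg _) (hv i) 2
    linarith
  have hne : (Finset.univ : Finset ι).Nonempty := by
    by_contra h
    rw [Finset.not_nonempty_iff_eq_empty] at h
    simp [h] at hw1
  have hpos : 0 < ∑ i, w i * exp (v i) :=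
    Finset.sum_pos (fun i _ => mul_pos (hw i) (exp_pos _)) hne
  have h1 := log_le_sub_one_of_pos hpos
  have h2 : ∑ i, w i * exp (v i) ≤ ∑ i, w i * (1 + v i + c ^ 2) :=
    Finset.sum_le_sum (fun i _ => hb i)
  simp only [mul_add, mul_one, Finset.sum_add_distrib, ← Finset.sum_mul, hw1, one_mul] at h2
  linarith

/-- A small relative entropy moves the mean of a bounded function by at most one eighth. -/
lemma mean_close (q ν f : ι → ℝ) (hq : ∀ i, 0 ≤ q i) (hq1 : ∑ i, q i = 1)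
    (hν : ∀ i, 0 < ν i) (hν1 : ∑ i, ν i = 1) {ρ : ℝ} (hρ : 1 ≤ ρ)
    (hf : ∀ i, |f i| ≤ ρ)
    (hkl : ∑ i, q i * (log (q i) - log (ν i)) ≤ 1 / (1024 * ρ ^ 2)) :
    ∑ i, q i * f i - ∑ i, ν i * f i ≤ 1 / 8 := by
  set μ := ∑ i, ν i * f i with hμ
  have hμb : |μ| ≤ ρ := by
    calc |μ| ≤ ∑ i, |ν i * f i| := Finset.abs_sum_le_sum_abs _ _
      _ ≤ ∑ i, ν i * ρ := Finset.sum_le_sum (fun i _ => by
          rw [abs_mul, abs_of_pos (hν i)]
          exact mul_le_mul_of_nonneg_left (hf i) (hν i).le)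
      _ = ρ := by rw [← Finset.sum_mul, hν1, one_mul]
  set lam : ℝ := 1 / (64 * ρ ^ 2) with hlam
  have hρ0 : 0 < ρ := by linarith
  have hlp : 0 < lam := by positivity
  have hv : ∀ i, |lam * (f i - μ)| ≤ lam * (2 * ρ) := by
    intro i
    rw [abs_mul, abs_of_pos hlp]
    refine mul_le_mul_of_nonneg_left ?_ hlp.le
    linarith [abs_sub (f i) μ, hf i]
  have hc : lam * (2 * ρ) ≤ 1 := by
    rw [hlam, div_mul_eq_mul_div, one_mul, div_le_one (by positivity)]
    nlinarith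
  have h1 := entropy_variational q ν (fun i => lam * (f i - μ)) hq hq1 hν
  have h2 := log_mgf_le ν _ hν hν1 hv hc
  have e1 : ∀ p : ι → ℝ, ∑ i, p i = 1 →
      ∑ i, p i * (lam * (f i - μ)) = lam * (∑ i, p i * f i - μ) := by
    intro p hp
    calc ∑ i, p i * (lam * (f i - μ)) = ∑ i, (lam * (p i * f i) - lam * μ * p i) :=
          Finset.sum_congr rfl (fun i _ => by ring)
      _ = _ := by
          rw [Finset.sum_sub_distrib, ← Finset.mul_sum, ← Finset.mul_sum, hp]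
          ring
  simp only [e1 q hq1] at h1
  rw [e1 ν hν1, ← hμ, sub_self, mul_zero, zero_add] at h2
  have h3 : lam * (∑ i, q i * f i - μ) ≤ lam * (1 / 8) := by
    have h4 : (lam * (2 * ρ)) ^ 2 + 1 / (1024 * ρ ^ 2) = lam * (1 / 8) := by
      rw [hlam]
      field_simp
      ring
    linarith
  exact le_of_mul_le_mul_left h3 hlp

/-- The softmax of a maximiser. -/
lemma softmax_step (Φ : Set (ι → ℝ)) (hcv : Convex ℝ Φ) (hcp : IsCompact Φ) (hne : Φ.Nonempty)
    {ρ : ℝ} (hρ : 1 ≤ ρ) (hb : ∀ φ ∈ Φ, ∀ i, |φ i| ≤ ρ)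
    (ν : ι → ℝ) (hν : ∀ i, 0 < ν i) (hν1 : ∑ i, ν i = 1) {β : ℝ} (hβ : 0 < β)
    (X : ι) (q : ι → ℝ) (hq : ∀ i, 0 ≤ q i) (hq1 : ∑ i, q i = 1) {t κ : ℝ}
    (hkl : ∑ i, q i * (log (q i) - log (ν i)) ≤ t)
    (hcov : ∀ φ ∈ Φ, φ X - ∑ i, q i * φ i ≤ κ) :
    ∃ φ ∈ Φ, ∀ ψ ∈ Φ,
      ψ X - ∑ i, ν i * exp (β * φ i) / (∑ j, ν j * exp (β * φ j)) * ψ i ≤ κ + t / β := by
  have hun : (Finset.univ : Finset ι).Nonempty := ⟨X, Finset.mem_univ X⟩
  have hZ : ∀ φ : ι → ℝ, 0 < ∑ i, ν i * exp (β * φ i) := fun φ =>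
    Finset.sum_pos (fun i _ => mul_pos (hν i) (exp_pos _)) hun
  have hcont : Continuous (fun φ : ι → ℝ => φ X - log (∑ i, ν i * exp (β * φ i)) / β) := by
    refine (continuous_apply X).sub (Continuous.div_const (Continuous.log ?_ ?_) β)
    · fun_prop
    · exact fun φ => (hZ φ).ne'
  obtain ⟨φ, hφ, hmax⟩ := hcp.exists_isMaxOn hne hcont.continuousOn
  refine ⟨φ, hφ, fun ψ hψ => ?_⟩
  set Z := ∑ j, ν j * exp (β * φ j) with hZd
  have hZ0 : 0 < Z := hZ φ
  set w : ι → ℝ := fun i => ν i * exp (β * φ i) / Z with hwd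
  have hw : ∀ i, 0 < w i := fun i => div_pos (mul_pos (hν i) (exp_pos _)) hZ0
  have hw1 : ∑ i, w i = 1 := by
    simp only [hwd, ← Finset.sum_div, ← hZd, div_self hZ0.ne']
  show ψ X - ∑ i, w i * ψ i ≤ κ + t / β
  -- first order condition
  set D := ψ X - φ X - ∑ i, w i * (ψ i - φ i) with hD
  have hsmall : ∀ s : ℝ, 0 < s → s ≤ 1 / (2 * β * ρ + 1) → D ≤ 4 * β * ρ ^ 2 * s := by
    intro s hs hs'
    have hpos : 0 < 2 * β * ρ + 1 := by positivity
    have hs2 : β * s * (2 * ρ) ≤ 1 := by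
      rw [le_div_iff₀ hpos] at hs'
      nlinarith
    have hs1 : s ≤ 1 := hs'.trans (by rw [div_le_one hpos]; nlinarith)
    have hmem : φ + s • (ψ - φ) ∈ Φ := hcv.add_smul_sub_mem hφ hψ ⟨hs.le, hs1⟩
    have h1 : (φ + s • (ψ - φ)) X - log (∑ i, ν i * exp (β * (φ + s • (ψ - φ)) i)) / β
        ≤ φ X - log Z / β := hmax hmem
    have hsum : ∑ i, ν i * exp (β * (φ + s • (ψ - φ)) i)
        = Z * ∑ i, w i * exp (β * s * (ψ i - φ i)) := by
      rw [Finset.mul_sum]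
      refine Finset.sum_congr rfl (fun i _ => ?_)
      simp only [hwd, Pi.add_apply, Pi.smul_apply, Pi.sub_apply, smul_eq_mul]
      rw [mul_add, exp_add]
      field_simp
    have hin : 0 < ∑ i, w i * exp (β * s * (ψ i - φ i)) :=
      Finset.sum_pos (fun i _ => mul_pos (hw i) (exp_pos _)) hun
    rw [hsum, log_mul hZ0.ne' hin.ne'] at h1
    simp only [Pi.add_apply, Pi.smul_apply, Pi.sub_apply, smul_eq_mul] at h1
    have hv : ∀ i, |β * s * (ψ i - φ i)| ≤ β * s * (2 * ρ) := by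
      intro i
      rw [abs_mul, abs_of_pos (mul_pos hβ hs)]
      refine mul_le_mul_of_nonneg_left ?_ (mul_pos hβ hs).le
      linarith [abs_sub (ψ i) (φ i), hb ψ hψ i, hb φ hφ i]
    have h2 := log_mgf_le w _ hw hw1 hv hs2
    have h3 : ∑ i, w i * (β * s * (ψ i - φ i)) = β * s * ∑ i, w i * (ψ i - φ i) := by
      rw [Finset.mul_sum]; exact Finset.sum_congr rfl (fun i _ => by ring)
    rw [h3] at h2
    have h4 := mul_le_mul_of_nonneg_left h1 hβ.le
    simp only [mul_sub, mul_div_cancel₀ _ hβ.ne'] at h4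
    have h5 : β * s * D ≤ β * s * (4 * β * ρ ^ 2 * s) := by
      rw [hD]; ring_nf; ring_nf at h4 h2; linarith
    exact le_of_mul_le_mul_left h5 (mul_pos hβ hs)
  have hD0 : D ≤ 0 := by
    by_contra hc
    push Not at hc
    have hs0 : 0 < min (1 / (2 * β * ρ + 1)) (D / (8 * β * ρ ^ 2)) := by
      apply lt_min <;> positivity
    have h1 := hsmall _ hs0 (min_le_left _ _)
    have h2 := mul_le_mul_of_nonneg_left
      (min_le_right (1 / (2 * β * ρ + 1)) (D / (8 * β * ρ ^ 2)))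
      (show (0:ℝ) ≤ 4 * β * ρ ^ 2 by positivity)
    have h3 : 4 * β * ρ ^ 2 * (D / (8 * β * ρ ^ 2)) = D / 2 := by
      field_simp
      ring
    linarith
  have hDe : D = (ψ X - ∑ i, w i * ψ i) - (φ X - ∑ i, w i * φ i) := by
    simp only [hD, mul_sub, Finset.sum_sub_distrib]; ring
  -- relative entropy of the softmax is nonnegative
  have h6 : log Z ≤ β * ∑ i, w i * φ i := by
    have h := entropy_variational w ν (fun _ => 0) (fun i => (hw i).le) hw1 hν
    have hl : ∀ i, w i * (log (w i) - log (ν i)) = β * (w i * φ i) - log Z * w i := by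
      intro i
      simp only [hwd]
      rw [log_div (mul_pos (hν i) (exp_pos _)).ne' hZ0.ne', log_mul (hν i).ne' (exp_pos _).ne',
        log_exp]
      ring
    simp only [hl, Finset.sum_sub_distrib, ← Finset.mul_sum, hw1, mul_zero, mul_one,
      Finset.sum_const_zero, exp_zero, hν1, log_one] at h
    linarith
  have h7 := entropy_variational q ν (fun i => β * φ i) hq hq1 hν
  have h8 : ∑ i, q i * (β * φ i) = β * ∑ i, q i * φ i := by
    rw [Finset.mul_sum]; exact Finset.sum_congr rfl (fun i _ => by ring)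
  rw [h8, ← hZd] at h7
  have h9 := hcov φ hφ
  have h10 : β * (φ X - ∑ i, w i * φ i) ≤ β * (κ + t / β) := by
    rw [mul_add, mul_div_cancel₀ _ hβ.ne']
    nlinarith [mul_le_mul_of_nonneg_left h9 hβ.le]
  linarith [le_of_mul_le_mul_left h10 hβ]

/-- Uniformly close exponents give softmax laws with small relative entropy. -/
lemma softmax_close (ν φ g : ι → ℝ) (hν : ∀ i, 0 < ν i) {β δ : ℝ} (hβ : 0 ≤ β)
    (hun : (Finset.univ : Finset ι).Nonempty) (hg : ∀ i, |φ i - g i| ≤ δ) :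
    ∑ i, ν i * exp (β * φ i) / (∑ j, ν j * exp (β * φ j)) *
      (log (ν i * exp (β * φ i) / (∑ j, ν j * exp (β * φ j)))
        - log (ν i * exp (β * g i) / (∑ j, ν j * exp (β * g j)))) ≤ 2 * β * δ := by
  set Z := ∑ j, ν j * exp (β * φ j) with hZd
  set Zg := ∑ j, ν j * exp (β * g j) with hZg
  have hp : ∀ (f : ι → ℝ) i, 0 < ν i * exp (β * f i) := fun f i => mul_pos (hν i) (exp_pos _)
  have hZ0 : 0 < Z := Finset.sum_pos (fun i _ => hp φ i) hun
  have hZg0 : 0 < Zg := Finset.sum_pos (fun i _ => hp g i) hun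
  have hle : Zg ≤ exp (β * δ) * Z := by
    rw [hZd, Finset.mul_sum]
    refine Finset.sum_le_sum (fun i _ => ?_)
    rw [mul_left_comm, ← exp_add]
    refine mul_le_mul_of_nonneg_left (exp_le_exp.2 ?_) (hν i).le
    nlinarith [abs_le.1 (hg i)]
  have hlog : log Zg ≤ β * δ + log Z := by
    have h := log_le_log hZg0 hle
    rwa [log_mul (exp_pos _).ne' hZ0.ne', log_exp] at h
  have hb : ∀ i, log (ν i * exp (β * φ i) / Z) - log (ν i * exp (β * g i) / Zg) ≤ 2 * β * δ := by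
    intro i
    rw [log_div (hp φ i).ne' hZ0.ne', log_div (hp g i).ne' hZg0.ne',
      log_mul (hν i).ne' (exp_pos _).ne', log_mul (hν i).ne' (exp_pos _).ne', log_exp, log_exp]
    nlinarith [abs_le.1 (hg i)]
  calc _ ≤ ∑ i, ν i * exp (β * φ i) / Z * (2 * β * δ) :=
        Finset.sum_le_sum (fun i _ => mul_le_mul_of_nonneg_left (hb i) (div_pos (hp φ i) hZ0).le)
    _ = 2 * β * δ := by
        rw [← Finset.sum_mul, ← Finset.sum_div, ← hZd, div_self hZ0.ne', one_mul]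

/-- Separated points number at most the `k`-th power of the net size. -/
theorem separated_le_net_pow (Φ : Set (ι → ℝ)) (hcv : Convex ℝ Φ) (hcp : IsCompact Φ)
    (hne : Φ.Nonempty) (hsym : ∀ φ ∈ Φ, -φ ∈ Φ)
    {ρ δ : ℝ} (hρ : 1 ≤ ρ) (hδ : 0 ≤ δ) (hb : ∀ φ ∈ Φ, ∀ i, |φ i| ≤ ρ)
    (hsep : ∀ i j, i ≠ j → ∃ φ ∈ Φ, 1 < φ i - φ j)
    (G : Finset (ι → ℝ)) (hG : ∀ φ ∈ Φ, ∃ g ∈ G, ∀ i, |φ i - g i| ≤ δ)
    {k : ℕ} (hk : 1 ≤ k)
    (hcond : log (Fintype.card ι) * (16 * k * δ) ^ k * (1024 * ρ ^ 2) ≤ 1) :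
    Fintype.card ι ≤ G.card ^ k := by
  classical
  have hk0 : (0:ℝ) < k := by exact_mod_cast hk
  set η : ℝ := 1 / (8 * k) with hη
  have hη0 : 0 < η := by positivity
  set r : ℝ := 16 * k * δ with hr
  have hr0 : 0 ≤ r := by positivity
  set τ : ℝ := 1 / (1024 * ρ ^ 2) with hτ
  obtain ⟨φ₀, hφ₀⟩ := hne
  have hG1 : 1 ≤ G.card := by
    obtain ⟨g, hg, -⟩ := hG φ₀ hφ₀
    exact Finset.card_pos.2 ⟨g, hg⟩
  suffices main : ∀ j : ℕ, ∀ ν : ι → ℝ, (∀ i, 0 < ν i) → ∑ i, ν i = 1 → ∀ t κ : ℝ, 0 ≤ t →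
      t * r ^ j ≤ τ → κ + j * η ≤ 1 / 8 → ∀ F : Finset ι,
      (∀ X ∈ F, ∃ q : ι → ℝ, (∀ i, 0 ≤ q i) ∧ ∑ i, q i = 1 ∧
        ∑ i, q i * (log (q i) - log (ν i)) ≤ t ∧ ∀ φ ∈ Φ, φ X - ∑ i, q i * φ i ≤ κ) →
      F.card ≤ G.card ^ j by
    rcases isEmpty_or_nonempty ι with h | h
    · simp
    have hM : (0:ℝ) < Fintype.card ι := by exact_mod_cast Fintype.card_pos
    have := main k (fun _ => (Fintype.card ι : ℝ)⁻¹) (fun _ => inv_pos.2 hM)
      (by simp [Finset.sum_const, Finset.card_univ, mul_inv_cancel₀ hM.ne'])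
      (log (Fintype.card ι)) 0 (log_natCast_nonneg _)
      (by rw [hτ, le_div_iff₀ (by positivity)]; exact hcond)
      (by rw [hη]; field_simp; norm_num)
      Finset.univ (fun X _ => ⟨fun i => if i = X then 1 else 0, fun i => by dsimp only; split <;> norm_num,
        by simp, by simp [ite_mul, log_inv], fun φ _ => by simp [ite_mul]⟩)
    simpa using this
  intro j
  have base : ∀ ν : ι → ℝ, (∀ i, 0 < ν i) → ∑ i, ν i = 1 → ∀ t κ : ℝ,
      t ≤ τ → κ ≤ 1 / 8 → ∀ F : Finset ι,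
      (∀ X ∈ F, ∃ q : ι → ℝ, (∀ i, 0 ≤ q i) ∧ ∑ i, q i = 1 ∧
        ∑ i, q i * (log (q i) - log (ν i)) ≤ t ∧ ∀ φ ∈ Φ, φ X - ∑ i, q i * φ i ≤ κ) →
      F.card ≤ 1 := by
    intro ν hν hν1 t κ ht hκ F hF
    rw [Finset.card_le_one]
    intro X hX Y hY
    by_contra hXY
    obtain ⟨φ, hφ, hgt⟩ := hsep X Y hXY
    obtain ⟨q, hq, hq1, hkl, hcov⟩ := hF X hX
    obtain ⟨p, hp, hp1, hkl', hcov'⟩ := hF Y hY
    have a1 := mean_close q ν φ hq hq1 hν hν1 hρ (hb φ hφ) (hkl.trans ht)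
    have a2 := mean_close p ν (-φ) hp hp1 hν hν1 hρ (hb _ (hsym φ hφ)) (hkl'.trans ht)
    have a3 := hcov φ hφ
    have a4 := hcov' (-φ) (hsym φ hφ)
    simp only [Pi.neg_apply, mul_neg, Finset.sum_neg_distrib] at a2 a4
    linarith
  induction j with
  | zero =>
    intro ν hν hν1 t κ ht htr hκ F hF
    simpa using base ν hν hν1 t κ (by simpa using htr) (by simpa using hκ) F hF
  | succ j ih =>
    intro ν hν hν1 t κ ht htr hκ F hF
    push_cast at hκ
    have hj0 : 0 ≤ (j:ℝ) * η := by positivity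
    by_cases htt : t ≤ τ
    · exact (base ν hν hν1 t κ htt (by nlinarith) F hF).trans (Nat.one_le_pow _ _ hG1)
    push Not at htt
    have ht0 : 0 < t := lt_of_le_of_lt (by positivity) htt
    set β := t / η with hβ
    have hβ0 : 0 < β := div_pos ht0 hη0
    have hch : ∀ X ∈ F, ∃ φ ∈ Φ, ∃ g ∈ G, (∀ i, |φ i - g i| ≤ δ) ∧ ∀ ψ ∈ Φ,
        ψ X - ∑ i, ν i * exp (β * φ i) / (∑ l, ν l * exp (β * φ l)) * ψ i ≤ κ + t / β := by
      intro X hX
      obtain ⟨q, hq, hq1, hkl, hcov⟩ := hF X hX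
      obtain ⟨φ, hφ, h⟩ := softmax_step Φ hcv hcp ⟨φ₀, hφ₀⟩ hρ hb ν hν hν1 hβ0 X q hq hq1 hkl hcov
      obtain ⟨g, hg, hg'⟩ := hG φ hφ
      exact ⟨φ, hφ, g, hg, hg', h⟩
    choose! φc hφc gc hgc hclose hcv' using hch
    have htb : t / β = η := by rw [hβ]; field_simp
    rw [pow_succ]
    refine Finset.card_le_mul_card_image_of_maps_to (f := gc) (fun X hX => hgc X hX)
      (G.card ^ j) (fun g _ => ?_)
    set Fg := F.filter (fun X => gc X = g)
    rcases Fg.eq_empty_or_nonempty with he | ⟨X₀, hX₀⟩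
    · simp [he]
    have hun : (Finset.univ : Finset ι).Nonempty := ⟨X₀, Finset.mem_univ _⟩
    have hp : ∀ (f : ι → ℝ) i, 0 < ν i * exp (β * f i) := fun f i => mul_pos (hν i) (exp_pos _)
    have hS : ∀ f : ι → ℝ, 0 < ∑ l, ν l * exp (β * f l) := fun f =>
      Finset.sum_pos (fun i _ => hp f i) hun
    refine ih (fun i => ν i * exp (β * g i) / ∑ l, ν l * exp (β * g l))
      (fun i => div_pos (hp g i) (hS g))
      (by rw [← Finset.sum_div, div_self (hS g).ne'])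
      (t * r) (κ + η) (by positivity) (by rw [mul_assoc, ← pow_succ']; exact htr)
      (by linarith) Fg (fun X hX => ?_)
    obtain ⟨hXF, hXg⟩ := Finset.mem_filter.1 hX
    refine ⟨fun i => ν i * exp (β * φc X i) / ∑ l, ν l * exp (β * φc X l),
      fun i => (div_pos (hp _ i) (hS _)).le, by rw [← Finset.sum_div, div_self (hS _).ne'],
      ?_, fun ψ hψ => htb ▸ hcv' X hXF ψ hψ⟩
    have h := softmax_close ν (φc X) (gc X) hν hβ0.le hun (hclose X hXF)
    rw [hXg] at h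
    refine h.trans_eq ?_
    rw [hβ, hη, hr]
    field_simp
    ring

end Vale.Agent.P126
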