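import Mathlib
import Vale.Agent.P126.Core

/-!
Multiscale reduction of metric entropy duality to the one-scale recursion.
-/

namespace Vale.Agent.P126

open Finset Real
open scoped Pointwise RealInnerProductSpace

variable {n : ℕ}

/-- An origin-symmetric convex body. -/
def IsSymBody (K : Set (EuclideanSpace ℝ (Fin n))) : Prop :=
  Convex ℝ K ∧ IsCompact K ∧ (interior K).Nonempty ∧ ∀ x ∈ K, -x ∈ K

/-- The polar of a set. -/
def polarBody (K : Set (EuclideanSpace ℝ (Fin n))) : Set (EuclideanSpace ℝ (Fin n)) :=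
  {y | ∀ x ∈ K, ⟪x, y⟫ ≤ 1}

/-- Least number of translates of `B`, with arbitrary centres, covering `A`. -/
noncomputable def covNum (A B : Set (EuclideanSpace ℝ (Fin n))) : ℕ :=
  sInf {k : ℕ | ∃ T : Finset (EuclideanSpace ℝ (Fin n)), T.card = k ∧ A ⊆ ⋃ x ∈ T, x +ᵥ B}

noncomputable local instance : DecidableEq (EuclideanSpace ℝ (Fin n)) := Classical.decEq _

lemma mem_translate {B : Set (EuclideanSpace ℝ (Fin n))} {x v : EuclideanSpace ℝ (Fin n)} :
    v ∈ x +ᵥ B ↔ v - x ∈ B := by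
  rw [Set.mem_vadd_set_iff_neg_vadd_mem, vadd_eq_add, neg_add_eq_sub]

lemma mem_dilate {c : ℝ} (hc : c ≠ 0) {B : Set (EuclideanSpace ℝ (Fin n))}
    {v : EuclideanSpace ℝ (Fin n)} : v ∈ c • B ↔ c⁻¹ • v ∈ B :=
  Set.mem_smul_set_iff_inv_smul_mem₀ hc B v

lemma IsSymBody.zero_mem_interior {K : Set (EuclideanSpace ℝ (Fin n))} (hK : IsSymBody K) :
    (0 : EuclideanSpace ℝ (Fin n)) ∈ interior K := by
  obtain ⟨hcv, -, ⟨x, hx⟩, hs⟩ := hK
  have hx' : -x ∈ interior K := by
    have hKe : -K = K := by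
      ext y
      simp only [Set.mem_neg]
      exact ⟨fun h => by simpa using hs _ h, hs y⟩
    have h : interior (Neg.neg ⁻¹' K) = Neg.neg ⁻¹' interior K :=
      ((Homeomorph.neg (EuclideanSpace ℝ (Fin n))).preimage_interior K).symm
    rw [Set.neg_preimage, hKe, Set.neg_preimage] at h
    rw [h] at hx
    exact hx
  have := hcv.interior hx hx' (show (0:ℝ) ≤ 1 / 2 by norm_num) (show (0:ℝ) ≤ 1 / 2 by norm_num)
    (by norm_num)
  simpa using this

lemma IsSymBody.zero_mem {K : Set (EuclideanSpace ℝ (Fin n))} (hK : IsSymBody K) :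
    (0 : EuclideanSpace ℝ (Fin n)) ∈ K :=
  interior_subset hK.zero_mem_interior

lemma IsSymBody.dilate {K : Set (EuclideanSpace ℝ (Fin n))} (hK : IsSymBody K) {c : ℝ}
    (hc : 0 < c) : IsSymBody (c • K) := by
  refine ⟨hK.1.smul c, hK.2.1.smul c, ?_, ?_⟩
  · refine ⟨c • (0 : EuclideanSpace ℝ (Fin n)), ?_⟩
    rw [interior_smul₀ hc.ne']
    exact Set.smul_mem_smul_set hK.zero_mem_interior
  · intro x hx
    rw [mem_dilate hc.ne'] at hx ⊢
    rw [smul_neg]
    exact hK.2.2.2 _ hx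

lemma dilate_mono {K : Set (EuclideanSpace ℝ (Fin n))} (hK : IsSymBody K) {c d : ℝ}
    (hc : 0 < c) (hcd : c ≤ d) : c • K ⊆ d • K := by
  intro x hx
  rw [mem_dilate hc.ne'] at hx
  rw [mem_dilate (hc.trans_le hcd).ne']
  have h := hK.1.smul_mem_of_zero_mem hK.zero_mem hx
    (t := c / d) ⟨(div_pos hc (hc.trans_le hcd)).le, (div_le_one (hc.trans_le hcd)).2 hcd⟩
  have e : (c / d) • c⁻¹ • x = d⁻¹ • x := by
    rw [smul_smul]
    congr 1
    field_simp
  rwa [e] at h

lemma abs_inner_le {L : Set (EuclideanSpace ℝ (Fin n))} (hL : IsSymBody L) {c : ℝ} (hc : 0 < c)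
    {g y : EuclideanSpace ℝ (Fin n)} (hg : g ∈ polarBody L) (hy : y ∈ c • L) :
    |⟪g, y⟫| ≤ c := by
  rw [mem_dilate hc.ne'] at hy
  have h1 := hg _ hy
  have h2 := hg _ (hL.2.2.2 _ hy)
  simp only [inner_neg_left, inner_smul_left, RCLike.conj_to_real] at h1 h2
  rw [real_inner_comm g y] at h1 h2
  rw [abs_le]
  have e : c * (c⁻¹ * ⟪g, y⟫) = ⟪g, y⟫ := by field_simp
  constructor <;> nlinarith [mul_le_mul_of_nonneg_left h1 hc.le, mul_le_mul_of_nonneg_left h2 hc.le]

lemma IsSymBody.polar {K : Set (EuclideanSpace ℝ (Fin n))} (hK : IsSymBody K) :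
    IsSymBody (polarBody K) := by
  refine ⟨?_, ?_, ?_, ?_⟩
  · intro x hx y hy a b ha hb hab z hz
    rw [inner_add_right, inner_smul_right, inner_smul_right]
    nlinarith [mul_le_mul_of_nonneg_left (hx z hz) ha, mul_le_mul_of_nonneg_left (hy z hz) hb]
  · have hclosed : IsClosed (polarBody K) := by
      simp only [polarBody, Set.ofPred_forall]
      exact isClosed_biInter (fun x _ => isClosed_le (by fun_prop) continuous_const)
    obtain ⟨r, hr, hball⟩ := Metric.nhds_basis_closedBall.mem_iff.1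
      (mem_interior_iff_mem_nhds.1 hK.zero_mem_interior)
    refine Metric.isCompact_of_isClosed_isBounded hclosed
      ((Metric.isBounded_closedBall (x := (0 : EuclideanSpace ℝ (Fin n))) (r := 1 / r)).subset ?_)
    intro y hy
    rw [mem_closedBall_zero_iff]
    rcases eq_or_ne y 0 with rfl | hy0
    · simp only [norm_zero]; positivity
    have hn : 0 < ‖y‖ := norm_pos_iff.2 hy0
    have hmem : (r / ‖y‖) • y ∈ K := hball (by
      rw [mem_closedBall_zero_iff, norm_smul, norm_of_nonneg (by positivity),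
        div_mul_cancel₀ _ hn.ne'])
    have h := hy _ hmem
    rw [inner_smul_left, RCLike.conj_to_real, real_inner_self_eq_norm_sq] at h
    rw [le_div_iff₀ hr]
    have e : r / ‖y‖ * ‖y‖ ^ 2 = ‖y‖ * r := by field_simp
    linarith
  · obtain ⟨R, hR⟩ := hK.2.1.isBounded.subset_closedBall (0 : EuclideanSpace ℝ (Fin n))
    refine ⟨0, mem_interior.2 ⟨Metric.ball 0 (1 / (|R| + 1)), ?_, Metric.isOpen_ball,
      Metric.mem_ball_self (by positivity)⟩⟩
    intro y hy x hx
    rw [mem_ball_zero_iff, lt_div_iff₀ (by positivity)] at hy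
    have hxR := mem_closedBall_zero_iff.1 (hR hx)
    nlinarith [real_inner_le_norm x y, norm_nonneg y, le_abs_self R, norm_nonneg x]
  · intro y hy x hx
    have := hy _ (hK.2.2.2 x hx)
    rw [inner_neg_left] at this
    rw [inner_neg_right]
    exact this

lemma exists_polar_gt {L : Set (EuclideanSpace ℝ (Fin n))} (hL : IsSymBody L)
    {x : EuclideanSpace ℝ (Fin n)} (hx : x ∉ L) : ∃ g ∈ polarBody L, 1 < ⟪g, x⟫ := by
  obtain ⟨f, u, hu, hux⟩ := geometric_hahn_banach_closed_point hL.1 hL.2.1.isClosed hx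
  have hu0 : 0 < u := by simpa using hu 0 hL.zero_mem
  set g := u⁻¹ • (InnerProductSpace.toDual ℝ (EuclideanSpace ℝ (Fin n))).symm f
  have hg : ∀ z, ⟪g, z⟫ = u⁻¹ * f z := fun z => by
    simp [g, inner_smul_left, InnerProductSpace.toDual_symm_apply]
  refine ⟨g, fun z hz => ?_, ?_⟩
  · rw [real_inner_comm, hg, inv_mul_le_one₀ hu0]
    exact (hu z hz).le
  · rw [hg, one_lt_inv_mul₀ hu0]
    exact hux

lemma polar_polar {K : Set (EuclideanSpace ℝ (Fin n))} (hK : IsSymBody K) :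
    polarBody (polarBody K) = K := by
  ext x
  constructor
  · intro h
    by_contra hx
    obtain ⟨g, hg, h1⟩ := exists_polar_gt hK hx
    linarith [h g hg]
  · intro hx y hy
    rw [real_inner_comm]
    exact hy x hx

lemma polar_dilate (K : Set (EuclideanSpace ℝ (Fin n))) {c : ℝ} (hc : 0 < c) :
    polarBody (c • K) = c⁻¹ • polarBody K := by
  ext y
  rw [mem_dilate (inv_ne_zero hc.ne'), inv_inv]
  constructor
  · intro h x hx
    have := h _ (Set.smul_mem_smul_set (a := c) hx)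
    rw [inner_smul_left, RCLike.conj_to_real] at this
    rwa [inner_smul_right]
  · rintro h _ ⟨x, hx, rfl⟩
    have := h x hx
    rw [inner_smul_right] at this
    rwa [inner_smul_left, RCLike.conj_to_real]

lemma exists_cover {A B : Set (EuclideanSpace ℝ (Fin n))} (hA : IsCompact A)
    (hB : (0 : EuclideanSpace ℝ (Fin n)) ∈ interior B) :
    ∃ T : Finset (EuclideanSpace ℝ (Fin n)), A ⊆ ⋃ x ∈ T, x +ᵥ B := by
  obtain ⟨T, hT⟩ := hA.elim_finite_subcover (fun x => {v | v - x ∈ interior B})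
    (fun x => isOpen_interior.preimage (f := fun v => v - x) (by fun_prop))
    (fun v _ => Set.mem_iUnion.2 ⟨v, by simpa using hB⟩)
  refine ⟨T, hT.trans ?_⟩
  refine Set.iUnion₂_mono (fun x _ v hv => ?_)
  exact mem_translate.2 (interior_subset hv)

lemma covNum_spec {A B : Set (EuclideanSpace ℝ (Fin n))} (hA : IsCompact A)
    (hB : (0 : EuclideanSpace ℝ (Fin n)) ∈ interior B) :
    ∃ T : Finset (EuclideanSpace ℝ (Fin n)), T.card = covNum A B ∧ A ⊆ ⋃ x ∈ T, x +ᵥ B := by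
  obtain ⟨T, hT⟩ := exists_cover hA hB
  have h : {k : ℕ | ∃ T : Finset (EuclideanSpace ℝ (Fin n)),
      T.card = k ∧ A ⊆ ⋃ x ∈ T, x +ᵥ B}.Nonempty := ⟨T.card, T, rfl, hT⟩
  exact Nat.sInf_mem h

lemma covNum_le {A B : Set (EuclideanSpace ℝ (Fin n))} (T : Finset (EuclideanSpace ℝ (Fin n)))
    (h : A ⊆ ⋃ x ∈ T, x +ᵥ B) : covNum A B ≤ T.card :=
  Nat.sInf_le ⟨T, rfl, h⟩

lemma covNum_pos {A B : Set (EuclideanSpace ℝ (Fin n))} (hA : IsCompact A) (hne : A.Nonempty)
    (hB : (0 : EuclideanSpace ℝ (Fin n)) ∈ interior B) : 1 ≤ covNum A B := by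
  obtain ⟨T, hc, hT⟩ := covNum_spec hA hB
  obtain ⟨v, hv⟩ := hne
  obtain ⟨x, hx, -⟩ := Set.mem_iUnion₂.1 (hT hv)
  exact hc ▸ Finset.card_pos.2 ⟨x, hx⟩

lemma covNum_anti {A B B' : Set (EuclideanSpace ℝ (Fin n))} (hA : IsCompact A)
    (hB : (0 : EuclideanSpace ℝ (Fin n)) ∈ interior B) (hBB : B ⊆ B') :
    covNum A B' ≤ covNum A B := by
  obtain ⟨T, hc, hT⟩ := covNum_spec hA hB
  exact hc ▸ covNum_le T (hT.trans (Set.iUnion₂_mono fun x _ => Set.vadd_set_mono hBB))

lemma covNum_scale_le (A B : Set (EuclideanSpace ℝ (Fin n))) (hA : IsCompact A)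
    (hB : (0 : EuclideanSpace ℝ (Fin n)) ∈ interior B) {c : ℝ} (_hc : c ≠ 0) :
    covNum (c • A) (c • B) ≤ covNum A B := by
  obtain ⟨T, hT, hcov⟩ := covNum_spec hA hB
  refine le_trans (covNum_le (T.image (c • ·)) ?_) (Finset.card_image_le.trans hT.le)
  rintro _ ⟨a, ha, rfl⟩
  obtain ⟨x, hx, hax⟩ := Set.mem_iUnion₂.1 (hcov ha)
  refine Set.mem_iUnion₂.2 ⟨c • x, Finset.mem_image_of_mem _ hx, ?_⟩
  rw [mem_translate] at hax ⊢
  show c • a - c • x ∈ c • B
  rw [← smul_sub]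
  exact Set.smul_mem_smul_set hax

/-- Packing is at most covering. -/
lemma card_le_covNum {A B : Set (EuclideanSpace ℝ (Fin n))} (hA : IsCompact A)
    (hB : (0 : EuclideanSpace ℝ (Fin n)) ∈ interior B) {α : Type*} (s : Finset α)
    (f : α → EuclideanSpace ℝ (Fin n)) (hf : ∀ a ∈ s, f a ∈ A)
    (hsep : ∀ a ∈ s, ∀ b ∈ s, ∀ c, f a - c ∈ B → f b - c ∈ B → a = b) :
    s.card ≤ covNum A B := by
  obtain ⟨T, hc, hT⟩ := covNum_spec hA hB
  have h : ∀ a ∈ s, ∃ x ∈ T, f a - x ∈ B := fun a ha => by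
    obtain ⟨x, hx, hax⟩ := Set.mem_iUnion₂.1 (hT (hf a ha))
    exact ⟨x, hx, mem_translate.1 hax⟩
  choose! g hg hg' using h
  rw [← hc]
  exact Finset.card_le_card_of_injOn g hg (fun a ha b hb hab =>
    hsep a ha b hb (g a) (hg' a ha) (hab ▸ hg' b hb))

/-- A maximal separated finite set, which is also a net. -/
lemma exists_sep_net {A C : Set (EuclideanSpace ℝ (Fin n))} (hA : IsCompact A)
    (hcv : Convex ℝ C) (hsym : ∀ x ∈ C, -x ∈ C)
    (hC : (0 : EuclideanSpace ℝ (Fin n)) ∈ interior C) :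
    ∃ T : Finset (EuclideanSpace ℝ (Fin n)), ↑T ⊆ A ∧
      (∀ x ∈ T, ∀ y ∈ T, x ≠ y → x - y ∉ C) ∧ (∀ v ∈ A, ∃ x ∈ T, v - x ∈ C) ∧
      T.card ≤ covNum A ((1 / 2 : ℝ) • C) := by
  have hC2 : (0 : EuclideanSpace ℝ (Fin n)) ∈ interior ((1 / 2 : ℝ) • C) := by
    rw [interior_smul₀ (by norm_num)]
    exact ⟨0, hC, smul_zero _⟩
  let good : ℕ → Prop := fun m => ∃ T : Finset (EuclideanSpace ℝ (Fin n)), T.card = m ∧
    ↑T ⊆ A ∧ ∀ x ∈ T, ∀ y ∈ T, x ≠ y → x - y ∉ C
  have hbd : ∀ T : Finset (EuclideanSpace ℝ (Fin n)), ↑T ⊆ A →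
      (∀ x ∈ T, ∀ y ∈ T, x ≠ y → x - y ∉ C) → T.card ≤ covNum A ((1 / 2 : ℝ) • C) := by
    intro T hTA hT
    refine card_le_covNum hA hC2 T id (fun a ha => hTA ha) (fun a ha b hb c hac hbc => ?_)
    by_contra hab
    rw [mem_dilate (by norm_num)] at hac hbc
    have h := hcv hac (hsym _ hbc) (show (0:ℝ) ≤ 1 / 2 by norm_num)
      (show (0:ℝ) ≤ 1 / 2 by norm_num) (by norm_num)
    apply hT a ha b hb hab
    convert h using 1
    simp only [id]
    module
  classical
  let m := Nat.findGreatest good (covNum A ((1 / 2 : ℝ) • C))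
  obtain ⟨T, hTc, hTA, hT⟩ : good m :=
    Nat.findGreatest_spec (m := 0) (Nat.zero_le _) ⟨∅, rfl, by simp, by simp⟩
  refine ⟨T, hTA, hT, fun v hv => ?_, hbd T hTA hT⟩
  by_contra hne
  push Not at hne
  have hvT : v ∉ T := fun h => hne v h (by simpa using interior_subset hC)
  have hA' : ↑(insert v T) ⊆ A := by
    rw [Finset.coe_insert]; exact Set.insert_subset hv hTA
  have hsep' : ∀ x ∈ insert v T, ∀ y ∈ insert v T, x ≠ y → x - y ∉ C := by
    intro x hx y hy hxy
    rcases Finset.mem_insert.1 hx with ex | hx' <;> rcases Finset.mem_insert.1 hy with ey | hy'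
    · exact absurd (ex.trans ey.symm) hxy
    · rw [ex]; exact hne y hy'
    · rw [ey]; exact fun h => hne x hx' (by simpa using hsym _ h)
    · exact hT x hx' y hy' hxy
  have h1 : (insert v T).card ≤ m :=
    Nat.le_findGreatest (hbd _ hA' hsep') ⟨_, rfl, hA', hsep'⟩
  rw [Finset.card_insert_of_notMem hvT, hTc] at h1
  omega

lemma geom_bound {q : ℝ} (hq0 : 0 ≤ q) (hq : q ≤ 1 / 2) (m : ℕ) :
    ∑ j ∈ Finset.range m, q ^ j ≤ 2 := by
  induction m with
  | zero => simp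
  | succ m ih =>
    rw [geom_sum_succ]
    nlinarith [Finset.sum_nonneg (s := Finset.range m) (f := fun j => q ^ j)
      (fun j _ => pow_nonneg hq0 j)]

/-- Dual nets of levels of one parity pack into the polar body. -/
lemma levels_pack {K L : Set (EuclideanSpace ℝ (Fin n))} (hK : IsSymBody K) (hL : IsSymBody L)
    {B : ℝ} (hB : 2 ≤ B) (W G : ℕ → Finset (EuclideanSpace ℝ (Fin n)))
    (hWL : ∀ l, ∀ y ∈ W l, y ∈ B • L) (hWK : ∀ l, ∀ y ∈ W l, B ^ l • y ∈ K)
    (hGL : ∀ l, ↑(G l) ⊆ polarBody L)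
    (hG : ∀ l, ∀ g ∈ G l, ∀ g' ∈ G l, g ≠ g' → ∃ y ∈ W l, 8 / B < |⟪g - g', y⟫|)
    (Q i : ℕ) :
    ∏ j : Fin Q, (G (2 * (j:ℕ) + i)).card ≤ covNum (polarBody L) (B⁻¹ • polarBody K) := by
  classical
  have hB0 : 0 < B := by linarith
  set q : ℝ := (B ^ 2)⁻¹ with hq
  have hq0 : 0 ≤ q := by positivity
  have hqh : q ≤ 1 / 2 := by
    rw [hq, one_div]; exact inv_anti₀ (by norm_num) (by nlinarith)
  rw [← Fintype.card_piFinset]
  refine card_le_covNum hL.polar.2.1 (hK.polar.dilate (inv_pos.2 hB0)).zero_mem_interior _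
    (fun g => (1 / 2 : ℝ) • ∑ j : Fin Q, q ^ (j:ℕ) • g j) (fun g hg x hx => ?_)
    (fun g hg g' hg' c hc hc' => ?_)
  · simp only [inner_smul_right, inner_sum]
    have h : ∀ j : Fin Q, q ^ (j:ℕ) * ⟪x, g j⟫ ≤ q ^ (j:ℕ) := fun j =>
      mul_le_of_le_one_right (by positivity) (hGL _ (Fintype.mem_piFinset.1 hg j) x hx)
    have h2 := Finset.sum_le_sum (s := Finset.univ) (fun j _ => h j)
    rw [Fin.sum_univ_eq_sum_range (fun j => q ^ j)] at h2
    linarith [geom_bound hq0 hqh Q]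
  · by_contra hne
    have hS : (Finset.univ.filter (fun j : Fin Q => g j ≠ g' j)).Nonempty := by
      obtain ⟨j, hj⟩ := Function.ne_iff.1 hne
      exact ⟨j, by simp [hj]⟩
    obtain ⟨j₀, hj₀, hmin⟩ := Finset.exists_min_image _ (fun j : Fin Q => (j:ℕ)) hS
    simp only [Finset.mem_filter, Finset.mem_univ, true_and] at hj₀ hmin
    set l := 2 * (j₀:ℕ) + i
    obtain ⟨y, hy, hgt⟩ := hG l _ (Fintype.mem_piFinset.1 hg j₀) _
      (Fintype.mem_piFinset.1 hg' j₀) hj₀
    have hyL := hWL l y hy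
    have hz := hWK l y hy
    -- both points lie in one translate
    have hup : |⟪(1 / 2 : ℝ) • ∑ j : Fin Q, q ^ (j:ℕ) • g j
        - (1 / 2 : ℝ) • ∑ j : Fin Q, q ^ (j:ℕ) • g' j, B ^ l • y⟫| ≤ 2 / B := by
      have hiB : (0:ℝ) < B⁻¹ := inv_pos.2 hB0
      rw [mem_dilate hiB.ne', inv_inv] at hc hc'
      have a1 := hc _ hz
      have a2 := hc _ (hK.2.2.2 _ hz)
      have a3 := hc' _ hz
      have a4 := hc' _ (hK.2.2.2 _ hz)
      rw [real_inner_comm] at a1 a2 a3 a4
      simp only [inner_neg_right, inner_smul_left, RCLike.conj_to_real, inner_sub_left]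
        at a1 a2 a3 a4 ⊢
      rw [abs_le, ← neg_div, div_le_iff₀ hB0, le_div_iff₀ hB0]
      constructor <;> nlinarith
    rw [← smul_sub, ← Finset.sum_sub_distrib] at hup
    simp only [← smul_sub, inner_smul_left, inner_smul_right, sum_inner, RCLike.conj_to_real]
      at hup
    set d : Fin Q → ℝ := fun j => ⟪g j - g' j, y⟫ with hd
    have hdb : ∀ j, |d j| ≤ 2 * B := fun j => by
      simp only [hd, inner_sub_left]
      linarith [abs_sub ⟪g j, y⟫ ⟪g' j, y⟫,
        abs_inner_le hL hB0 (hGL _ (Fintype.mem_piFinset.1 hg j)) hyL,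
        abs_inner_le hL hB0 (hGL _ (Fintype.mem_piFinset.1 hg' j)) hyL]
    have hd0 : ∀ j : Fin Q, (j:ℕ) < j₀ → d j = 0 := fun j hj => by
      have : g j = g' j := by
        by_contra h
        exact absurd (hmin j h) (by omega)
      simp [hd, this]
    have hup' : |(1 / 2 : ℝ) * (B ^ l * ∑ j : Fin Q, q ^ (j:ℕ) * d j)| ≤ 2 / B := by
      refine le_of_eq_of_le ?_ hup
      congr 1
      simp only [Finset.mul_sum]
      exact Finset.sum_congr rfl (fun j _ => by simp only [hd]; ring)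
    rw [← Finset.add_sum_erase _ _ (Finset.mem_univ j₀)] at hup'
    set R := ∑ j ∈ Finset.univ.erase j₀, q ^ (j:ℕ) * d j
    have hR : |R| ≤ q ^ (j₀:ℕ) * (4 / B) := by
      have h1 : |R| ≤ ∑ j ∈ Finset.univ.erase j₀,
          (if (j₀:ℕ) < j then q ^ (j:ℕ) * (2 * B) else 0) := by
        refine (Finset.abs_sum_le_sum_abs _ _).trans (Finset.sum_le_sum (fun j hj => ?_))
        have hne' : (j:ℕ) ≠ j₀ := fun h => (Finset.mem_erase.1 hj).1 (Fin.ext h)
        split_ifs with h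
        · rw [abs_mul, abs_of_nonneg (pow_nonneg hq0 _)]
          exact mul_le_mul_of_nonneg_left (hdb j) (pow_nonneg hq0 _)
        · rw [hd0 j (by omega)]; simp
      have h2 : ∑ j ∈ Finset.univ.erase j₀, (if (j₀:ℕ) < j then q ^ (j:ℕ) * (2 * B) else 0)
          ≤ ∑ j ∈ Finset.Ico ((j₀:ℕ) + 1) Q, q ^ j * (2 * B) := by
        refine (Finset.sum_le_sum_of_subset_of_nonneg (Finset.subset_univ _)
          (fun j _ _ => by split_ifs <;> positivity)).trans ?_
        rw [Fin.sum_univ_eq_sum_range (fun j => if (j₀:ℕ) < j then q ^ j * (2 * B) else 0),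
          ← Finset.sum_filter]
        refine Finset.sum_le_sum_of_subset_of_nonneg ?_ (fun j _ _ => by positivity)
        intro j hj
        simp only [Finset.mem_filter, Finset.mem_range, Finset.mem_Ico] at hj ⊢
        omega
      refine h1.trans (h2.trans ?_)
      rw [Finset.sum_Ico_eq_sum_range]
      calc ∑ k ∈ Finset.range (Q - ((j₀:ℕ) + 1)), q ^ ((j₀:ℕ) + 1 + k) * (2 * B)
          = q ^ (j₀:ℕ) * (q * (2 * B)) * ∑ k ∈ Finset.range (Q - ((j₀:ℕ) + 1)), q ^ k := by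
            rw [Finset.mul_sum]
            exact Finset.sum_congr rfl (fun k _ => by rw [pow_add, pow_succ]; ring)
        _ ≤ q ^ (j₀:ℕ) * (q * (2 * B)) * 2 :=
            mul_le_mul_of_nonneg_left (geom_bound hq0 hqh _) (by positivity)
        _ = q ^ (j₀:ℕ) * (4 / B) := by rw [hq]; field_simp; ring
    have e : B ^ l * q ^ (j₀:ℕ) = B ^ i := by
      simp only [l, hq]
      rw [pow_add, pow_mul, inv_pow]
      field_simp
    have h3 : 4 / B < |d j₀ + R / q ^ (j₀:ℕ)| := by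
      have hqp : 0 < q ^ (j₀:ℕ) := by positivity
      have h4 : |R / q ^ (j₀:ℕ)| ≤ 4 / B := by
        rw [abs_div, abs_of_pos hqp, div_le_iff₀ hqp, mul_comm (4 / B)]
        exact hR
      have h5 : 8 / B = 4 / B + 4 / B := by ring
      have h6 := abs_sub_abs_le_abs_sub (d j₀) (-(R / q ^ (j₀:ℕ)))
      rw [sub_neg_eq_add, abs_neg] at h6
      simp only [hd] at *
      linarith
    have e2 : B ^ l * (q ^ (j₀:ℕ) * d j₀ + R) = B ^ i * (d j₀ + R / q ^ (j₀:ℕ)) := by
      rw [← e]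
      have hqp : (q ^ (j₀:ℕ)) ≠ 0 := by positivity
      field_simp
    rw [e2, abs_mul, abs_mul, abs_of_pos (by norm_num : (0:ℝ) < 1 / 2),
      abs_of_pos (by positivity : (0:ℝ) < B ^ i)] at hup'
    have h7 : (1:ℝ) ≤ B ^ i := one_le_pow₀ (by linarith)
    have h8 : 4 / B = 2 * (2 / B) := by ring
    nlinarith [abs_nonneg (d j₀ + R / q ^ (j₀:ℕ))]

lemma prod_range_two_mul (f : ℕ → ℕ) (Q : ℕ) :
    ∏ l ∈ Finset.range (2 * Q), f l = (∏ j : Fin Q, f (2 * (j:ℕ) + 0)) *
      ∏ j : Fin Q, f (2 * (j:ℕ) + 1) := by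
  rw [Fin.prod_univ_eq_prod_range (fun j => f (2 * j + 0)),
    Fin.prod_univ_eq_prod_range (fun j => f (2 * j + 1))]
  induction Q with
  | zero => simp
  | succ Q ih =>
    rw [show 2 * (Q + 1) = 2 * Q + 1 + 1 by ring, Finset.prod_range_succ, Finset.prod_range_succ,
      Finset.prod_range_succ, Finset.prod_range_succ, ih]
    ring

/-- Volumetric bound for separated points in a multiple of a body. -/
lemma card_le_volume {L : Set (EuclideanSpace ℝ (Fin n))} (hL : IsSymBody L) {B : ℝ}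
    (hB : 0 < B) (T : Finset (EuclideanSpace ℝ (Fin n))) (hT : ∀ x ∈ T, x ∈ B • L)
    (hsep : ∀ x ∈ T, ∀ y ∈ T, x ≠ y → x - y ∉ L) :
    (T.card : ℝ) ≤ (2 * B + 1) ^ n := by
  open MeasureTheory in
  set A : Set (EuclideanSpace ℝ (Fin n)) := (1 / 2 : ℝ) • L with hA
  have hAb := hL.dilate (show (0:ℝ) < 1 / 2 by norm_num)
  have hvpos : 0 < MeasureTheory.volume L :=
    MeasureTheory.Measure.measure_pos_of_nonempty_interior _ hL.2.2.1
  have hvfin : MeasureTheory.volume L ≠ ⊤ := hL.2.1.measure_lt_top.ne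
  have hdisj : (T : Set (EuclideanSpace ℝ (Fin n))).PairwiseDisjoint (fun x => x +ᵥ A) := by
    intro x hx y hy hxy
    rw [Function.onFun, Set.disjoint_left]
    intro v hvx hvy
    rw [mem_translate, hA, mem_dilate (by norm_num)] at hvx hvy
    have h := hL.1 hvy (hL.2.2.2 _ hvx) (show (0:ℝ) ≤ 1 / 2 by norm_num)
      (show (0:ℝ) ≤ 1 / 2 by norm_num) (by norm_num)
    apply hsep x hx y hy hxy
    convert h using 1
    module
  have hsub : (⋃ x ∈ T, x +ᵥ A) ⊆ (B + 1 / 2) • L := by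
    intro v hv
    obtain ⟨x, hx, hvx⟩ := Set.mem_iUnion₂.1 hv
    rw [mem_translate] at hvx
    rw [hL.1.add_smul hB.le (by norm_num)]
    exact ⟨x, hT x hx, v - x, hvx, add_sub_cancel x v⟩
  have hm := MeasureTheory.measure_mono (μ := MeasureTheory.volume) hsub
  rw [MeasureTheory.measure_biUnion_finset hdisj
    (fun x _ => (hAb.2.1.vadd x).measurableSet)] at hm
  simp only [MeasureTheory.measure_vadd, Finset.sum_const, nsmul_eq_mul, hA,
    MeasureTheory.Measure.addHaar_smul, finrank_euclideanSpace_fin] at hm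
  rw [abs_of_nonneg (by positivity), abs_of_nonneg (by positivity), ← mul_assoc,
    ENNReal.mul_le_mul_iff_left hvpos.ne' hvfin, ← ENNReal.ofReal_natCast,
    ← ENNReal.ofReal_mul (by positivity),
    ENNReal.ofReal_le_ofReal_iff (by positivity)] at hm
  rw [one_div_pow, mul_one_div, div_le_iff₀ (by positivity), ← mul_pow] at hm
  rwa [show (B + 1 / 2) * 2 = 2 * B + 1 by ring] at hm

/-- One cell: at most the `k`-th power of the dual net. -/
lemma cell_card_le {L : Set (EuclideanSpace ℝ (Fin n))} (hL : IsSymBody L) {B : ℝ} (hB : 2 ≤ B)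
    (W G : Finset (EuclideanSpace ℝ (Fin n))) (hWL : ∀ y ∈ W, y ∈ B • L)
    (hW : ∀ x ∈ W, ∀ y ∈ W, x ≠ y → x - y ∉ L)
    (hG : ∀ g ∈ polarBody L, ∃ h ∈ G, ∀ y ∈ W, |⟪g - h, y⟫| ≤ 8 / B)
    {k : ℕ} (hk : 1 ≤ k) {H U : ℝ} (hH : log G.card ≤ H)
    (hU : k * H + 1 ≤ U ∨ n * log (2 * B + 1) ≤ U)
    (hcond : U * (128 * k / B) ^ k * (1024 * B ^ 2) ≤ 1) :
    W.card ≤ G.card ^ k := by
  classical
  have hB0 : 0 < B := by linarith
  by_contra hlt
  push Not at hlt
  obtain ⟨T, hTW, hTc⟩ := Finset.exists_subset_card_eq (Nat.succ_le_of_lt hlt)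
  let ev : EuclideanSpace ℝ (Fin n) →ₗ[ℝ] (T → ℝ) :=
    { toFun := fun g i => ⟪g, (i : EuclideanSpace ℝ (Fin n))⟫
      map_add' := fun a b => funext fun i => by simp [inner_add_left]
      map_smul' := fun c a => funext fun i => by simp [inner_smul_left] }
  have hcont : Continuous ev := ev.continuous_of_finiteDimensional
  have hR := hL.polar
  have hlog : log ((G.card ^ k).succ : ℕ) ≤ k * H + 1 := by
    have h1 : 1 ≤ G.card := by
      obtain ⟨h, hh, -⟩ := hG 0 hR.zero_mem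
      exact Finset.card_pos.2 ⟨h, hh⟩
    have h2 : (1:ℝ) ≤ (G.card:ℝ) ^ k := one_le_pow₀ (by exact_mod_cast h1)
    have h3 : log ((G.card:ℝ) ^ k + 1) ≤ log (2 * (G.card:ℝ) ^ k) :=
      log_le_log (by positivity) (by linarith)
    rw [log_mul (by norm_num) (by positivity), log_pow] at h3
    push_cast
    have h4 := mul_le_mul_of_nonneg_left hH (Nat.cast_nonneg k : (0:ℝ) ≤ k)
    linarith [log_le_sub_one_of_pos (show (0:ℝ) < 2 by norm_num)]
  have hlog2 : log ((G.card ^ k).succ : ℕ) ≤ U := by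
    rcases hU with hU | hU
    · exact hlog.trans hU
    · refine le_trans ?_ hU
      have hv := card_le_volume hL hB0 T (fun x hx => hWL x (hTW hx))
        (fun x hx y hy => hW x (hTW hx) y (hTW hy))
      rw [hTc] at hv
      have h5 := log_le_log (by exact_mod_cast Nat.succ_pos _) hv
      rwa [log_pow] at h5
  have h := separated_le_net_pow (ev '' polarBody L) (hR.1.linear_image ev)
    (hR.2.1.image hcont) ⟨ev 0, 0, hR.zero_mem, rfl⟩
    (by rintro _ ⟨g, hg, rfl⟩; exact ⟨-g, hR.2.2.2 g hg, map_neg ev g⟩)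
    (show (1:ℝ) ≤ B by linarith) (show (0:ℝ) ≤ 8 / B by positivity)
    (by rintro _ ⟨g, hg, rfl⟩ i; exact abs_inner_le hL hB0 hg (hWL _ (hTW i.2)))
    (fun i j hij => by
      obtain ⟨g, hg, h1⟩ := exists_polar_gt hL
        (hW _ (hTW i.2) _ (hTW j.2) (fun h => hij (Subtype.ext h)))
      exact ⟨ev g, ⟨g, hg, rfl⟩, by simpa [ev, inner_sub_right] using h1⟩)
    (G.image ev) (by
      rintro _ ⟨g, hg, rfl⟩
      obtain ⟨h, hh, hh'⟩ := hG g hg
      exact ⟨ev h, Finset.mem_image_of_mem _ hh,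
        fun i => by simpa [ev, inner_sub_left] using hh' _ (hTW i.2)⟩)
    hk (by
      rw [Fintype.card_coe, hTc]
      refine le_trans ?_ hcond
      rw [show 16 * (k:ℝ) * (8 / B) = 128 * k / B by ring]
      refine mul_le_mul_of_nonneg_right (mul_le_mul_of_nonneg_right hlog2 (by positivity))
        (by positivity))
  rw [Fintype.card_coe, hTc] at h
  have := h.trans (Nat.pow_le_pow_left Finset.card_image_le k)
  omega

/-- One direction of duality, with explicit scale and power. -/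
theorem dual_le {K L : Set (EuclideanSpace ℝ (Fin n))} (hK : IsSymBody K) (hL : IsSymBody L)
    {k : ℕ} (hk : 1 ≤ k) {B U : ℝ} (hB : 2 ≤ B)
    (hU : k * log (covNum (polarBody L) (B⁻¹ • polarBody K)) + 1 ≤ U ∨ n * log (2 * B + 1) ≤ U)
    (hcond : U * (128 * k / B) ^ k * (1024 * B ^ 2) ≤ 1) :
    covNum K ((2:ℝ) • L) ≤ covNum (polarBody L) (B⁻¹ • polarBody K) ^ (2 * k) := by
  classical
  have hB0 : 0 < B := by linarith
  set N := covNum (polarBody L) (B⁻¹ • polarBody K) with hN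
  let cc : ℕ → ℝ := fun l => 2 * B ^ l
  have hcc : ∀ l, 0 < cc l := fun l => by positivity
  -- maximal separated sets in cells
  have hcell : ∀ (l : ℕ) (x : EuclideanSpace ℝ (Fin n)),
      ∃ T : Finset (EuclideanSpace ℝ (Fin n)), ↑T ⊆ K ∩ (x +ᵥ cc (l + 1) • L) ∧
      (∀ v ∈ T, ∀ w ∈ T, v ≠ w → v - w ∉ cc l • L) ∧
      (∀ v ∈ K ∩ (x +ᵥ cc (l + 1) • L), ∃ w ∈ T, v - w ∈ cc l • L) ∧
      T.card ≤ covNum K ((1 / 2 : ℝ) • cc l • L) := by
    intro l x
    have hb := hL.dilate (hcc l)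
    have hcl : IsClosed (x +ᵥ cc (l + 1) • L) :=
      ((hL.dilate (hcc (l+1))).2.1.vadd x).isClosed
    have hA : IsCompact (K ∩ (x +ᵥ cc (l + 1) • L)) := hK.2.1.inter_right hcl
    obtain ⟨T, h1, h2, h3, h4⟩ := exists_sep_net hA hb.1 hb.2.2.2 hb.zero_mem_interior
    refine ⟨T, h1, h2, h3, h4.trans ?_⟩
    have h0 := (hb.dilate (show (0:ℝ) < 1/2 by norm_num)).zero_mem_interior
    obtain ⟨U, hU, hUc⟩ := covNum_spec hK.2.1 h0
    exact hU ▸ covNum_le U (Set.inter_subset_left.trans hUc)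
  choose T hTsub hTsep hTcov hTcard using hcell
  -- the largest cell of each level
  have hmax : ∀ l, ∃ x ∈ K, ∀ x' ∈ K, (T l x').card ≤ (T l x).card := by
    intro l
    have hex : ∃ m, ∃ x ∈ K, (T l x).card = m := ⟨_, 0, hK.zero_mem, rfl⟩
    obtain ⟨m, hm⟩ := hex
    let good : ℕ → Prop := fun m => ∃ x ∈ K, (T l x).card = m
    obtain ⟨x, hx, hxm⟩ : good (Nat.findGreatest good (covNum K ((1 / 2 : ℝ) • cc l • L))) :=
      Nat.findGreatest_spec (m := m) (by obtain ⟨x, -, rfl⟩ := hm; exact hTcard l x) hm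
    exact ⟨x, hx, fun x' hx' => hxm ▸ Nat.le_findGreatest (hTcard l x') ⟨x', hx', rfl⟩⟩
  choose xm hxm hxmax using hmax
  let f : ℕ → EuclideanSpace ℝ (Fin n) → EuclideanSpace ℝ (Fin n) :=
    fun l v => (cc l)⁻¹ • (v - xm l)
  let W : ℕ → Finset (EuclideanSpace ℝ (Fin n)) := fun l => (T l (xm l)).image (f l)
  have hWL : ∀ l, ∀ y ∈ W l, y ∈ B • L := by
    intro l y hy
    obtain ⟨v, hv, rfl⟩ := Finset.mem_image.1 hy
    have h := (hTsub l (xm l) hv).2
    rw [mem_translate, mem_dilate (hcc _).ne'] at h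
    rw [mem_dilate hB0.ne']
    convert h using 1
    simp only [f, cc, smul_smul]
    congr 1
    rw [pow_succ]
    field_simp
  have hWK : ∀ l, ∀ y ∈ W l, B ^ l • y ∈ K := by
    intro l y hy
    obtain ⟨v, hv, rfl⟩ := Finset.mem_image.1 hy
    have h := hK.1 (hTsub l (xm l) hv).1 (hK.2.2.2 _ (hxm l))
      (show (0:ℝ) ≤ 1 / 2 by norm_num) (show (0:ℝ) ≤ 1 / 2 by norm_num) (by norm_num)
    convert h using 1
    simp only [f, cc, smul_smul]
    rw [show B ^ l * (2 * B ^ l)⁻¹ = 1 / 2 by field_simp]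
    module
  have hWsep : ∀ l, ∀ x ∈ W l, ∀ y ∈ W l, x ≠ y → x - y ∉ L := by
    intro l x hx y hy hxy
    obtain ⟨v, hv, rfl⟩ := Finset.mem_image.1 hx
    obtain ⟨w, hw, rfl⟩ := Finset.mem_image.1 hy
    intro h
    apply hTsep l (xm l) v hv w hw (fun h' => hxy (by rw [h']))
    rw [mem_dilate (hcc l).ne']
    convert h using 1
    simp only [f]
    module
  have hWcard : ∀ l, (W l).card = (T l (xm l)).card := fun l =>
    Finset.card_image_of_injective _ (fun a b h => by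
      simpa [f, smul_right_inj (inv_ne_zero (hcc l).ne')] using h)
  -- dual nets
  have hGex : ∀ l, ∃ G : Finset (EuclideanSpace ℝ (Fin n)), ↑G ⊆ polarBody L ∧
      (∀ g ∈ G, ∀ g' ∈ G, g ≠ g' → ∃ y ∈ W l, 8 / B < |⟪g - g', y⟫|) ∧
      (∀ g ∈ polarBody L, ∃ h ∈ G, ∀ y ∈ W l, |⟪g - h, y⟫| ≤ 8 / B) := by
    intro l
    set C : Set (EuclideanSpace ℝ (Fin n)) := {g | ∀ y ∈ W l, |⟪g, y⟫| ≤ 8 / B} with hC
    have hcv : Convex ℝ C := by
      intro a ha b hb s t hs ht hst y hy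
      rw [inner_add_left, inner_smul_left, inner_smul_left, RCLike.conj_to_real,
        RCLike.conj_to_real]
      refine (abs_add_le _ _).trans ?_
      rw [abs_mul, abs_mul, abs_of_nonneg hs, abs_of_nonneg ht]
      calc s * |⟪a, y⟫| + t * |⟪b, y⟫| ≤ s * (8 / B) + t * (8 / B) :=
            add_le_add (mul_le_mul_of_nonneg_left (ha y hy) hs)
              (mul_le_mul_of_nonneg_left (hb y hy) ht)
        _ = 8 / B := by rw [← add_mul, hst, one_mul]
    have h0 : (0 : EuclideanSpace ℝ (Fin n)) ∈ interior C := by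
      rw [mem_interior_iff_mem_nhds]
      have : C = ⋂ y ∈ W l, {g | |⟪g, y⟫| ≤ 8 / B} := by ext g; simp [hC]
      rw [this, Filter.biInter_finset_mem]
      intro y _
      have hc : Continuous fun g : EuclideanSpace ℝ (Fin n) => |⟪g, y⟫| := by fun_prop
      exact hc.continuousAt.eventually_le_const (by simp only [inner_zero_left, abs_zero]; positivity)
    obtain ⟨G, h1, h2, h3, -⟩ := exists_sep_net hL.polar.2.1 hcv
      (fun g hg y hy => by rw [inner_neg_left, abs_neg]; exact hg y hy) h0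
    refine ⟨G, h1, fun g hg g' hg' hne => ?_, h3⟩
    simpa [hC] using h2 g hg g' hg' hne
  choose G hGL hGsep hGnet using hGex
  have hG1 : ∀ l, 1 ≤ (G l).card := fun l => by
    obtain ⟨h, hh, -⟩ := hGnet l 0 hL.polar.zero_mem
    exact Finset.card_pos.2 ⟨h, hh⟩
  have hpack : ∀ Q i : ℕ, ∏ j : Fin Q, (G (2 * (j:ℕ) + i)).card ≤ N :=
    fun Q i => levels_pack hK hL hB W G hWL hWK hGL hGsep Q i
  have hM : ∀ l, ∀ x ∈ K, (T l x).card ≤ (G l).card ^ k := by
    intro l x hx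
    refine (hxmax l x hx).trans ?_
    rw [← hWcard l]
    have h1 : (G l).card ≤ N := by simpa using hpack 1 l
    exact cell_card_le hL hB (W l) (G l) (hWL l) (hWsep l) (hGnet l) hk
      (log_le_log (by exact_mod_cast hG1 l) (by exact_mod_cast h1)) hU hcond
  -- telescope the cells
  have htel : ∀ P : ℕ, ∀ x ∈ K, ∃ U : Finset (EuclideanSpace ℝ (Fin n)),
      K ∩ (x +ᵥ cc P • L) ⊆ ⋃ u ∈ U, u +ᵥ (2:ℝ) • L ∧
      U.card ≤ ∏ l ∈ Finset.range P, (G l).card ^ k := by
    intro P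
    induction P with
    | zero =>
      intro x hx
      refine ⟨{x}, fun v hv => Set.mem_iUnion₂.2 ⟨x, Finset.mem_singleton_self x, ?_⟩, by simp⟩
      simpa [cc] using hv.2
    | succ P ih =>
      intro x hx
      choose! U hU hUc using ih
      refine ⟨(T P x).biUnion U, ?_, ?_⟩
      · intro v hv
        obtain ⟨w, hw, hvw⟩ := hTcov P x v hv
        obtain ⟨u, hu, hvu⟩ := Set.mem_iUnion₂.1
          (hU w (hTsub P x hw).1 ⟨hv.1, mem_translate.2 hvw⟩)
        exact Set.mem_iUnion₂.2 ⟨u, Finset.mem_biUnion.2 ⟨w, hw, hu⟩, hvu⟩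
      · rw [Finset.prod_range_succ, mul_comm]
        refine (Finset.card_biUnion_le_card_mul _ _ _ (fun w hw => hUc w (hTsub P x hw).1)).trans ?_
        exact Nat.mul_le_mul_right _ (hM P x hx)
  obtain ⟨r, hr, hball⟩ := Metric.nhds_basis_closedBall.mem_iff.1
    (mem_interior_iff_mem_nhds.1 hL.zero_mem_interior)
  obtain ⟨R, hR⟩ := hK.2.1.isBounded.subset_closedBall (0 : EuclideanSpace ℝ (Fin n))
  obtain ⟨P, hP⟩ := pow_unbounded_of_one_lt (R / r) (show (1:ℝ) < B by linarith)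
  have hP2 : R / r < cc (2 * P) := by
    have h1 : B ^ P ≤ B ^ (2 * P) := pow_le_pow_right₀ (by linarith) (by omega)
    have h2 : 0 < B ^ (2 * P) := by positivity
    simp only [cc]; linarith
  obtain ⟨U, hU, hUc⟩ := htel (2 * P) 0 hK.zero_mem
  have hsub : K ⊆ (0 : EuclideanSpace ℝ (Fin n)) +ᵥ cc (2 * P) • L := by
    intro v hv
    rw [mem_translate, sub_zero, mem_dilate (hcc _).ne']
    refine hball ?_
    rw [mem_closedBall_zero_iff, norm_smul, norm_inv, norm_of_nonneg (hcc _).le,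
      inv_mul_le_iff₀ (hcc _)]
    rw [div_lt_iff₀ hr] at hP2
    linarith [mem_closedBall_zero_iff.1 (hR hv)]
  refine (covNum_le U (fun v hv => hU ⟨hv, hsub hv⟩)).trans (hUc.trans ?_)
  rw [Finset.prod_pow, prod_range_two_mul (fun l => (G l).card), Nat.mul_comm 2 k, pow_mul']
  refine Nat.pow_le_pow_left ?_ k
  rw [pow_two]
  exact Nat.mul_le_mul (hpack P 0) (hpack P 1)

lemma log_cast_mono {a b : ℕ} (ha : 1 ≤ a) (hab : a ≤ b) : log (a : ℝ) ≤ log (b : ℝ) :=
  log_le_log (by exact_mod_cast ha) (by exact_mod_cast hab)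

/-- Rescaled one direction. -/
theorem dual_le' {K L : Set (EuclideanSpace ℝ (Fin n))} (hK : IsSymBody K) (hL : IsSymBody L)
    {k : ℕ} (hk : 1 ≤ k) {a : ℝ} (ha : 4 ≤ a) {y : ℝ} (hy : 0 ≤ y)
    (hH : log (covNum (polarBody L) (a⁻¹ • polarBody K)) ≤ y ∨ (n : ℝ) ≤ y)
    (hcond : (k * y + 1) * a * (256 * k / a) ^ k * (256 * a ^ 2) ≤ 1) :
    covNum K L ≤ covNum (polarBody L) (a⁻¹ • polarBody K) ^ (2 * k) := by
  have ha0 : 0 < a := by linarith
  have hL2 := hL.dilate (show (0:ℝ) < 1 / 2 by norm_num)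
  have e1 : (2:ℝ) • (1 / 2 : ℝ) • L = L := by rw [smul_smul]; norm_num
  have e2 : (a / 2)⁻¹ • polarBody K = (2:ℝ) • a⁻¹ • polarBody K := by
    rw [smul_smul]; congr 1; field_simp
  have e3 : polarBody ((1 / 2 : ℝ) • L) = (2:ℝ) • polarBody L := by
    rw [polar_dilate L (by norm_num)]; norm_num
  have hKa := hK.polar.dilate (inv_pos.2 ha0)
  have hle : covNum (polarBody ((1 / 2 : ℝ) • L)) ((a / 2)⁻¹ • polarBody K)
      ≤ covNum (polarBody L) (a⁻¹ • polarBody K) := by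
    rw [e2, e3]
    exact covNum_scale_le _ _ hL.polar.2.1 hKa.zero_mem_interior (by norm_num)
  have hpos : 1 ≤ covNum (polarBody ((1 / 2 : ℝ) • L)) ((a / 2)⁻¹ • polarBody K) :=
    covNum_pos hL2.polar.2.1 ⟨0, hL2.polar.zero_mem⟩
      (hK.polar.dilate (by positivity)).zero_mem_interior
  have hky : 0 ≤ (k:ℝ) * y + 1 := by positivity
  have h := dual_le hK hL2 hk (U := (k * y + 1) * a) (show (2:ℝ) ≤ a / 2 by linarith) (by
    rcases hH with hH | hH
    · left
      have h1 := (log_cast_mono hpos hle).trans hH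
      have h2 := mul_le_mul_of_nonneg_left h1 (Nat.cast_nonneg k : (0:ℝ) ≤ k)
      nlinarith
    · right
      have h1 : log (2 * (a / 2) + 1) ≤ a := by
        linarith [log_le_sub_one_of_pos (show (0:ℝ) < 2 * (a / 2) + 1 by linarith)]
      have h2 : (n:ℝ) ≤ k * y + 1 := by
        have : (1:ℝ) ≤ k := by exact_mod_cast hk
        nlinarith
      exact (mul_le_mul_of_nonneg_left h1 (Nat.cast_nonneg n)).trans
        (mul_le_mul_of_nonneg_right h2 ha0.le)) (by
    refine le_trans (le_of_eq ?_) hcond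
    rw [show 128 * (k:ℝ) / (a / 2) = 256 * k / a by field_simp; ring,
      show 1024 * (a / 2) ^ 2 = 256 * a ^ 2 by ring])
  rw [e1] at h
  exact h.trans (Nat.pow_le_pow_left hle _)

/-- Both inequalities at scale `a` and power `2 k`. -/
theorem two_sided {K L : Set (EuclideanSpace ℝ (Fin n))} (hK : IsSymBody K) (hL : IsSymBody L)
    {k : ℕ} (hk : 1 ≤ k) {a : ℝ} (ha : 4 ≤ a)
    (hcond : (k * min (log (covNum K L)) n + 1) * a * (256 * k / a) ^ k * (256 * a ^ 2) ≤ 1) :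
    log (covNum (polarBody L) (a • polarBody K)) ≤ 2 * k * log (covNum K L) ∧
    log (covNum K L) ≤ 2 * k * log (covNum (polarBody L) (a⁻¹ • polarBody K)) := by
  have ha0 : 0 < a := by linarith
  have hy : 0 ≤ min (log (covNum K L)) (n:ℝ) := le_min (log_natCast_nonneg _) (Nat.cast_nonneg _)
  have hor : log (covNum K L) ≤ min (log (covNum K L)) (n:ℝ) ∨
      (n:ℝ) ≤ min (log (covNum K L)) (n:ℝ) := by
    rcases le_total (log (covNum K L)) (n:ℝ) with h | h
    · exact Or.inl (by rw [min_eq_left h])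
    · exact Or.inr (by rw [min_eq_right h])
  constructor
  · have hKa := hK.polar.dilate ha0
    have e : polarBody (a • polarBody K) = a⁻¹ • K := by
      rw [polar_dilate _ ha0, polar_polar hK]
    have hsc : covNum (a⁻¹ • K) (a⁻¹ • L) ≤ covNum K L :=
      covNum_scale_le K L hK.2.1 hL.zero_mem_interior (inv_ne_zero ha0.ne')
    have hp : 1 ≤ covNum (a⁻¹ • K) (a⁻¹ • L) :=
      covNum_pos (hK.dilate (inv_pos.2 ha0)).2.1 ⟨0, (hK.dilate (inv_pos.2 ha0)).zero_mem⟩
        (hL.dilate (inv_pos.2 ha0)).zero_mem_interior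
    have h := dual_le' hL.polar hKa hk ha hy (hor.imp_left (fun h => by
      rw [e, polar_polar hL]
      exact (log_cast_mono hp hsc).trans h)) hcond
    rw [e, polar_polar hL] at h
    have h' := h.trans (Nat.pow_le_pow_left hsc _)
    have hp' : 1 ≤ covNum (polarBody L) (a • polarBody K) :=
      covNum_pos hL.polar.2.1 ⟨0, hL.polar.zero_mem⟩ hKa.zero_mem_interior
    have h2 := log_le_log (by exact_mod_cast hp')
      (show (covNum (polarBody L) (a • polarBody K) : ℝ) ≤ (covNum K L : ℝ) ^ (2 * k) by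
        exact_mod_cast h')
    rw [log_pow] at h2
    push_cast at h2
    exact h2
  · by_contra hc
    push Not at hc
    have h0 : 0 ≤ log (covNum (polarBody L) (a⁻¹ • polarBody K)) := log_natCast_nonneg _
    have hk' : (1:ℝ) ≤ k := by exact_mod_cast hk
    have h := dual_le' hK hL hk ha hy (hor.imp_left (fun h => by nlinarith)) hcond
    have hp : 1 ≤ covNum K L := covNum_pos hK.2.1 ⟨0, hK.zero_mem⟩ hL.zero_mem_interior
    have h2 := log_le_log (by exact_mod_cast hp)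
      (show (covNum K L : ℝ) ≤ (covNum (polarBody L) (a⁻¹ • polarBody K) : ℝ) ^ (2 * k) by
        exact_mod_cast h)
    rw [log_pow] at h2
    push_cast at h2
    linarith

lemma quartic_le_two_pow (k : ℕ) (hk : 20 ≤ k) : k ^ 4 ≤ 2 ^ k := by
  induction k, hk using Nat.le_induction with
  | base => norm_num
  | succ m hm ih =>
    have h3 : m ^ 3 * 20 ≤ m ^ 4 := by
      rw [pow_succ m 3]; exact Nat.mul_le_mul_left _ hm
    have : (m + 1) ^ 4 ≤ 2 * m ^ 4 := by nlinarith [Nat.mul_le_mul hm hm]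
    rw [pow_succ 2 m]; omega

/-- The condition for a logarithmic number of steps. -/
lemma log_choice {x : ℝ} (hx : 0 ≤ x) {k : ℕ} (hk : 100 ≤ k) (hkx : log (2 + x) ≤ k) :
    (k * x + 1) * (4096 * k) * (256 * k / (4096 * k)) ^ k * (256 * (4096 * (k:ℝ)) ^ 2) ≤ 1 := by
  have hk0 : (1:ℝ) ≤ k := by exact_mod_cast (by omega : 1 ≤ k)
  have hx3 : 2 + x ≤ (3:ℝ) ^ k := by
    calc 2 + x = exp (log (2 + x)) := (exp_log (by linarith)).symm
      _ ≤ exp k := exp_le_exp.2 hkx
      _ = exp 1 ^ k := by rw [← exp_nat_mul, mul_one]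
      _ ≤ 3 ^ k := pow_le_pow_left₀ (exp_pos 1).le exp_one_lt_three.le _
  have h1 : (k:ℝ) * x + 1 ≤ k * 3 ^ k := by nlinarith
  have h2 : (256 * (k:ℝ) / (4096 * k)) = 1 / 16 := by field_simp; norm_num
  have h3 : (k:ℝ) ^ 4 ≤ 2 ^ k := by exact_mod_cast quartic_le_two_pow k (by omega)
  have h4 : (256:ℝ) * 4096 ^ 3 ≤ 2 ^ k :=
    le_trans (by norm_num) (pow_le_pow_right₀ (by norm_num : (1:ℝ) ≤ 2) (show 44 ≤ k by omega))
  have h5 : (3:ℝ) ^ k * 4 ^ k ≤ 16 ^ k := by
    rw [← mul_pow]; exact pow_le_pow_left₀ (by norm_num) (by norm_num) _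
  rw [h2, one_div_pow]
  calc (k * x + 1) * (4096 * (k:ℝ)) * (1 / (16:ℝ) ^ k) * (256 * (4096 * (k:ℝ)) ^ 2)
      ≤ k * 3 ^ k * (4096 * (k:ℝ)) * (1 / (16:ℝ) ^ k) * (256 * (4096 * (k:ℝ)) ^ 2) := by
        gcongr
    _ = (k:ℝ) ^ 4 * (256 * 4096 ^ 3) * 3 ^ k / 16 ^ k := by ring
    _ ≤ 2 ^ k * 2 ^ k * 3 ^ k / 16 ^ k := by gcongr
    _ ≤ 1 := by
        rw [div_le_one (by positivity), ← mul_pow, show (2:ℝ) * 2 = 4 by norm_num, mul_comm]
        exact h5

/-- Duality with logarithmic losses in dimension and in entropy. -/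
theorem duality_log : ∃ C : ℝ, 1 ≤ C ∧ ∀ n : ℕ, 1 ≤ n →
    ∀ K L : Set (EuclideanSpace ℝ (Fin n)), IsSymBody K → IsSymBody L →
      log (covNum (polarBody L) ((C * log (2 + min (log (covNum K L)) (n:ℝ))) • polarBody K))
          / (C * log (2 + min (log (covNum K L)) (n:ℝ))) ≤ log (covNum K L) ∧
      log (covNum K L) ≤ (C * log (2 + min (log (covNum K L)) (n:ℝ))) *
        log (covNum (polarBody L) ((C * log (2 + min (log (covNum K L)) (n:ℝ)))⁻¹ • polarBody K)) := by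
  refine ⟨819200, by norm_num, fun n _ K L hK hL => ?_⟩
  set x := log (covNum K L)
  set y := min x (n:ℝ)
  have hx : 0 ≤ y := le_min (log_natCast_nonneg _) (Nat.cast_nonneg _)
  set l := log (2 + y)
  have hl : (0.69:ℝ) ≤ l :=
    le_trans (show (0.69:ℝ) ≤ log 2 by linarith [log_two_gt_d9])
      (log_le_log (by norm_num) (by linarith))
  set k := ⌈l⌉₊ + 100 with hk
  have hkl : l ≤ k := (Nat.le_ceil l).trans (by exact_mod_cast Nat.le_add_right _ _)
  have hkl' : (k:ℝ) ≤ 200 * l := by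
    have := Nat.ceil_lt_add_one (show (0:ℝ) ≤ l by linarith)
    rw [hk]; push_cast; linarith
  have hk1 : (100:ℝ) ≤ k := by exact_mod_cast (show 100 ≤ k by omega)
  obtain ⟨h1, h2⟩ := two_sided hK hL (k := k) (by omega) (a := 4096 * k) (by linarith)
    (log_choice hx (by omega) hkl)
  have hpos : 0 < 819200 * l := by linarith
  have hka : (0:ℝ) < 4096 * k := by linarith
  constructor
  · rw [div_le_iff₀ hpos]
    have hmono : covNum (polarBody L) ((819200 * l) • polarBody K)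
        ≤ covNum (polarBody L) ((4096 * (k:ℝ)) • polarBody K) :=
      covNum_anti hL.polar.2.1 (hK.polar.dilate hka).zero_mem_interior
        (dilate_mono hK.polar hka (by linarith))
    have hp : 1 ≤ covNum (polarBody L) ((819200 * l) • polarBody K) :=
      covNum_pos hL.polar.2.1 ⟨0, hL.polar.zero_mem⟩ (hK.polar.dilate hpos).zero_mem_interior
    have h3 := (log_cast_mono hp hmono).trans h1
    nlinarith [log_natCast_nonneg (covNum K L)]
  · have hmono : covNum (polarBody L) ((4096 * (k:ℝ))⁻¹ • polarBody K)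
        ≤ covNum (polarBody L) ((819200 * l)⁻¹ • polarBody K) :=
      covNum_anti hL.polar.2.1 (hK.polar.dilate (inv_pos.2 hpos)).zero_mem_interior
        (dilate_mono hK.polar (inv_pos.2 hpos) (inv_anti₀ hka (by linarith)))
    have hp : 1 ≤ covNum (polarBody L) ((4096 * (k:ℝ))⁻¹ • polarBody K) :=
      covNum_pos hL.polar.2.1 ⟨0, hL.polar.zero_mem⟩
        (hK.polar.dilate (inv_pos.2 hka)).zero_mem_interior
    have h3 := log_cast_mono hp hmono
    have h4 := log_natCast_nonneg (covNum (polarBody L) ((4096 * (k:ℝ))⁻¹ • polarBody K))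
    calc x ≤ _ := h2
      _ ≤ _ := mul_le_mul (by linarith) h3 h4 hpos.le

/-- Duality with an absolute power and a scale that is any small power of the entropy. -/
theorem duality_power : ∀ m : ℕ, 1 ≤ m → ∃ C : ℝ, 1 ≤ C ∧ ∀ n : ℕ, 1 ≤ n →
    ∀ K L : Set (EuclideanSpace ℝ (Fin n)), IsSymBody K → IsSymBody L →
      log (covNum (polarBody L)
          ((C * (1 + min (log (covNum K L)) (n:ℝ)) ^ (1 / (m:ℝ))) • polarBody K)) / C ≤ log (covNum K L) ∧
      log (covNum K L) ≤ C * log (covNum (polarBody L)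
          ((C * (1 + min (log (covNum K L)) (n:ℝ)) ^ (1 / (m:ℝ)))⁻¹ • polarBody K)) := by
  intro m hm
  set k := m + 3 with hk
  set C : ℝ := (256 * (k:ℝ)) ^ k * 256 * k with hC
  have hk1 : (4:ℝ) ≤ k := by exact_mod_cast (show 4 ≤ k by omega)
  have hpow : (256 * (k:ℝ)) ≤ (256 * (k:ℝ)) ^ k := le_self_pow₀ (by linarith) (by omega)
  have hC2k : 2 * (k:ℝ) ≤ C := by rw [hC]; nlinarith
  refine ⟨C, by linarith, fun n _ K L hK hL => ?_⟩
  set x := log (covNum K L)
  set y := min x (n:ℝ)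
  have hx : 0 ≤ y := le_min (log_natCast_nonneg _) (Nat.cast_nonneg _)
  set a := C * (1 + y) ^ (1 / (m:ℝ)) with ha
  have hr : 1 ≤ (1 + y) ^ (1 / (m:ℝ)) := one_le_rpow (by linarith) (by positivity)
  have ha4 : 4 ≤ a := by rw [ha]; nlinarith
  have ham : a ^ m = C ^ m * (1 + y) := by
    rw [ha, mul_pow, one_div, rpow_inv_natCast_pow (by linarith) (by omega)]
  obtain ⟨h1, h2⟩ := two_sided hK hL (k := k) (by omega) ha4 (by
    have ha0 : (0:ℝ) < a := by linarith
    have e : (k * y + 1) * a * (256 * (k:ℝ) / a) ^ k * (256 * a ^ 2)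
        = (k * y + 1) * (256 * (k:ℝ)) ^ k * 256 / a ^ m := by
      rw [hk, div_pow, pow_add a m 3]
      field_simp
    rw [e, div_le_one (by positivity), ham]
    have hCm : C ≤ C ^ m := le_self_pow₀ (by linarith) (by omega)
    calc (k * y + 1) * (256 * (k:ℝ)) ^ k * 256 ≤ k * (1 + y) * (256 * (k:ℝ)) ^ k * 256 := by
          gcongr; linarith
      _ = C * (1 + y) := by rw [hC]; ring
      _ ≤ C ^ m * (1 + y) := by gcongr)
  constructor
  · rw [div_le_iff₀ (by linarith)]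
    nlinarith [log_natCast_nonneg (covNum K L)]
  · exact h2.trans (mul_le_mul_of_nonneg_right hC2k (log_natCast_nonneg _))

end Vale.Agent.P126
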